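import Vale.Agent.Lib.P201.Dom

/-!
# Zero divisors in group algebras of extensions with infinite cyclic kernel

(1) If `z` has infinite order in `G`, generates a normal subgroup, and `K[G/⟨z⟩]` has no nonzero
zero divisors, then `K[G]` has none.  (2) The same for iterated extensions.
-/

namespace Vale.Agent.Results.P201.InfiniteCyclicKernel

universe u v

/-- `m` successive extensions with infinite cyclic kernel of a group whose group algebra over `K`
has no nonzero zero divisors -/
def Tower (K : Type v) [Field K] : ℕ → ∀ (G : Type u) [Group G], Prop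
  | 0, G, _ => NoZeroDivisors (MonoidAlgebra K G)
  | m + 1, G, _ => ∃ (z : G) (_ : (Subgroup.zpowers z).Normal),
      (∀ i : ℤ, z ^ i = 1 → i = 0) ∧ Tower K m (G ⧸ Subgroup.zpowers z)

theorem result (K : Type v) [Field K] :
    (∀ (G : Type u) [Group G] (z : G) [(Subgroup.zpowers z).Normal],
      (∀ i : ℤ, z ^ i = 1 → i = 0) →
      NoZeroDivisors (MonoidAlgebra K (G ⧸ Subgroup.zpowers z)) →
      NoZeroDivisors (MonoidAlgebra K G)) ∧
    (∀ (m : ℕ) (G : Type u) [Group G], Tower K m G → NoZeroDivisors (MonoidAlgebra K G)) := by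
  have h1 : ∀ (G : Type u) [Group G] (z : G) [(Subgroup.zpowers z).Normal],
      (∀ i : ℤ, z ^ i = 1 → i = 0) →
      NoZeroDivisors (MonoidAlgebra K (G ⧸ Subgroup.zpowers z)) →
      NoZeroDivisors (MonoidAlgebra K G) := by
    intro G _ z _ hz hd
    exact Vale.Agent.P201.dom z hz
  refine ⟨h1, ?_⟩
  intro m
  induction m with
  | zero => exact fun G _ hG => hG
  | succ m ih =>
    intro G _ hG
    obtain ⟨z, hn, hz, hT⟩ := hG
    exact h1 G z hz (ih _ hT)

end Vale.Agent.Results.P201.InfiniteCyclicKernel
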